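import Crest.Agent.X212.Idg99.Md
import Crest.Agent.X212.Num57.Nb
import Crest.Agent.X212.G75.Dat

/-!
# Row 212, INT (helper42): `2 Λ²` of a capped piece is an integer (index of `d* + d⁺` on the line)
-/

set_option autoImplicit false
set_option linter.unusedSectionVars false
open scoped Manifold ContDiff Topology InnerProductSpace
open Set Filter MeasureTheory Module

noncomputable section
namespace Crest.Agent.X212.Sm42
open An Wz78 Sob92 Ind95 Map77 Idg99

section gen
variable {E : Type} [NormedAddCommGroup E] [NormedSpace ℝ E] [FiniteDimensional ℝ E]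
  [MeasurableSpace E] [BorelSpace E]
  {HM : Type} [TopologicalSpace HM] {I : ModelWithCorners ℝ E HM}
  {M : Type} [TopologicalSpace M] [ChartedSpace HM M] [IsManifold I ∞ M]
  [MeasurableSpace M] {ι : Type} [Fintype ι]
  {X Y : Type} [NormedAddCommGroup X] [InnerProductSpace ℝ X] [FiniteDimensional ℝ X]
  [NormedAddCommGroup Y] [InnerProductSpace ℝ Y] [FiniteDimensional ℝ Y]
  {F : Fr I M ι} {o : ι → ι → ι → ι → M → ℝ} {T : M → X →L[ℝ] X} {A : ι → M → X →L[ℝ] X}
  (j : X →L[ℝ] Y) (r : Y →L[ℝ] X)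

/-- transport of endomorphisms along an isometric embedding -/
def cj : (X →L[ℝ] X) →L[ℝ] Y →L[ℝ] Y :=
  (ContinuousLinearMap.compL ℝ Y X Y j).comp ((ContinuousLinearMap.compL ℝ Y X X).flip r)

theorem cj_apply (S : X →L[ℝ] X) (v : Y) : cj j r S v = j (S (r v)) := rfl

variable {j r} (h1 : ∀ v, r (j v) = v) (h2 : ∀ v w, ⟪j v, w⟫_ℝ = ⟪v, r w⟫_ℝ)
include h1

theorem cj_mul (S S' : X →L[ℝ] X) : cj j r (S * S') = cj j r S * cj j r S' :=
  ContinuousLinearMap.ext fun v => by simp only [mul_apply_eq_comp, cj_apply, h1]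

theorem trL_cj (S : X →L[ℝ] X) : trL (cj j r S) = trL S :=
  (LinearMap.trace_comp_comm' ((S : X →ₗ[ℝ] X) ∘ₗ (r : Y →ₗ[ℝ] X)) (j : X →ₗ[ℝ] Y)).trans
    (congrArg _ (LinearMap.ext fun v => congrArg S (h1 v)))

theorem cwd_cj (hA : ∀ a x, SA I (A a) x) (x : M) :
    cwd F o (fun x => cj j r (T x)) (fun a x => cj j r (A a x)) x = cwd F o T A x := by
  have e : ∀ a b, curv I F.e F.c (fun a x => cj j r (A a x)) a b x = cj j r (curv I F.e F.c A a b x) :=
    fun a b => by
      simp only [curv, fun a b => dv_clm (e := F.e a) (cj j r) ((hA b x).mdifferentiableAt (by simp)),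
        map_sub, map_add, map_sum, map_smul, cj_mul h1]
  simp only [cwd, cw, e, ← cj_mul h1, trL_cj h1]

include h2

theorem sub_cj (h : Sub F T A) : Sub F (fun x => cj j r (T x)) fun a x => cj j r (A a x) :=
  ⟨⟨fun a x => (h.con.sm a x).clm _, fun a x => by
      simp only [← map_smul, ← map_sum, h.con.proj]⟩, fun a x v w => by
      rw [cj_apply, cj_apply, h2, h.sk, real_inner_comm (j _), h2, real_inner_comm],
    fun x => SA.clm _ (h.sm x), fun a x => by
      have := congrArg (cj j r) (h.par a x)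
      simpa only [nabE, dv_clm (cj j r) ((h.sm x).mdifferentiableAt (by simp)), map_add, map_sub,
        cj_mul h1, map_zero] using this⟩

theorem prj_cj (h : Prj T) : Prj fun x => cj j r (T x) :=
  ⟨fun x v => by simp only [cj_apply, h1, h.idem], fun x v w => by
    rw [cj_apply, cj_apply, h2, h.symm, real_inner_comm (j _), h2, real_inner_comm]⟩

omit h1 h2

theorem exists_emb (κ : Type) [Fintype κ] : ∃ (j : Eu κ →L[ℝ] HS κ) (r : HS κ →L[ℝ] Eu κ),
    (∀ v, r (j v) = v) ∧ ∀ v w, ⟪j v, w⟫_ℝ = ⟪v, r w⟫_ℝ := by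
  classical
  let b := (EuclideanSpace.basisFun κ ℝ).toBasis
  let f : Eu κ →ₗ[ℝ] HS κ := b.constr ℝ fun a => EuclideanSpace.basisFun (κ × κ) ℝ (a, a)
  let u := f.isometryOfOrthonormal (v := b) (EuclideanSpace.basisFun κ ℝ).orthonormal (by
    rw [show ⇑f ∘ ⇑b = _ from funext fun a => b.constr_basis ℝ _ a]
    exact (EuclideanSpace.basisFun (κ × κ) ℝ).orthonormal.comp (fun a => (a, a))
      fun _ _ e => congrArg Prod.fst e)
  refine ⟨u.toContinuousLinearMap, u.toContinuousLinearMap.adjoint, fun v => ?_, fun v w =>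
    (ContinuousLinearMap.adjoint_inner_right _ _ _).symm⟩
  refine ext_inner_left ℝ fun w => ?_
  rw [ContinuousLinearMap.adjoint_inner_right]
  exact u.inner_map_map w v

variable [T2Space M] [BorelSpace M] [SecondCountableTopology M] [CompactSpace M] [I.Boundaryless]
  {lam : Type} [Fintype lam] {B : Base M ι lam} {G : Geo I M ι lam}

/-- the index of `d* + d⁺` with coefficients in the line -/
theorem two_lad (h4 : finrank ℝ E = 4) (hB : B.OK I) (hG : G.OK B) {O : Set M} (hO : IsClopen O) :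
    ∃ n : ℤ, 2 * ∫ x in O, lad B G x ∂G.F.μ +
      2 * ∫ x in O, (eud G.F B.o x + sgd G.F B.o x) / 2 ∂G.F.μ = n := by
  classical
  obtain ⟨j, r, h1, h2⟩ := exists_emb lam
  have k := Num57.OK.of_base h4 hB hG
  have L := li_of hB hG
  let g := O.indicator fun x => cj j r (B.l x)
  let d : Bd M ι lam := ⟨G.F.P, B.o, 0, g, fun x => idx (fun a b => G.F.P a b x) (g x),
    fun x => idx (sdm (fun a b => G.F.P a b x) fun a b c e => B.o a b c e x) (g x), 0, 0⟩
  have z : Prj (0 : M → En lam) := ⟨by simp, by simp⟩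
  have s : Sub G.F (0 : M → En lam) (0 : ι → M → En lam) :=
    ⟨⟨fun _ _ => contMDiffAt_const, by simp⟩, fun _ _ _ _ => by simp, contMDiff_const,
      fun a x => by simp [nabE]⟩
  have hd : d.OK := ⟨k.vo, prj_on O (prj_cj h1 h2 ⟨fun x => DFunLike.congr_fun (L.idem x), L.sym⟩),
    fun _ => rfl, fun _ => rfl, z, z, fun _ _ _ _ => by simp [d], by simp [d], by simp [d],
    by simp [d], by simp [d], by simp [d]⟩
  have e := ind_full hd k (B := fun a x => cj j r (G.a a x)) (W := 0) (u₀ := 0)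
    ⟨rfl, (sub_cj h1 h2 L.sub).ind hO, s, s, ⟨fun _ _ => contMDiffAt_const, fun a b x => by simp [d]⟩, by simp [d]⟩ contMDiff_const
  have i2 : An.Sm I fun x => (eud G.F B.o x + sgd G.F B.o x) / 2 := fun x =>
    ((sm_eud k x).add (sm_sgd k x)).div_const _
  refine ⟨-ind G.F (d.full G.F 0), ?_⟩
  rw [Int.cast_neg, e, ← integral_const_mul, ← integral_const_mul, ← integral_add
    ((Num57.int_sm (sm_lad hB hG h4)).integrableOn.const_mul _)
    ((Num57.int_sm i2).integrableOn.const_mul _),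
    ← integral_indicator hO.2.measurableSet, ← integral_neg]
  refine congrArg _ (funext fun x => ?_)
  have e0 : dn G.F B.o (fun x => d.sp x + d.sm x) 0 x = 0 := by simp [d, dn, dens, cw]
  rw [e0, show d.g = g from rfl, show d.o = B.o from rfl, cwd_ind]
  by_cases hx : x ∈ O
  · simp only [g, indicator_of_mem hx, cwd_cj h1 L.sub.con.sm, trL_cj h1, L.rk, lad_eq hB hG]
    ring
  · simp [g, hx]

end gen

open M G75

variable {κ lam : Type} [Fintype κ] [Fintype lam] [DecidableEq lam] {Lm : LM κ lam} {S : Scene Lm}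

/-- **`2 (Λ² - σ)` of a capped piece is an integer** -/
theorem two_nb (hS : S.OK) {i : S.L} {c : S.M.Cl} {π : Reg S.A} {β sg l2 : ℝ}
    (hc : ∀ a ∈ c.1, S.M.pin a) (h : S.M.sys.Piece c.1 π) (hN : S.Nb i (S.M.sys.U π) β sg l2) :
    ∃ n : ℤ, 2 * (l2 - sg) = n := by
  have := S.M.cpt
  obtain ⟨C⟩ := Cyl58.caps S.X S.A κ S.M
  obtain ⟨k, r, hr⟩ := Met55.exists_frame (I := S.X.I) (M := S.X.M)
  obtain ⟨W, -, -⟩ := Met55.exw Ms48.ms1 S.X S.A κ S.M C (cstB r hr) hS.sp
  obtain ⟨Λ, -⟩ := Line51.exl S.X S.A κ lam S.M W (S.N i)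
    (cstL 0 Dr59.Sm.zero Dr59.Dg.zero) (hS.spl i)
  have := Cyl58.caps_compact W.toCaps hc
  have hO := Mark.p0_mem c c.1
  obtain ⟨e1, -, e3⟩ := Num57.nb_int h (fun a k => hc a (h.bd_subset k)) Λ c hO hN
  obtain ⟨n, e⟩ := two_lad (W.Z c).dim (Λ.B_ok c c) (Λ.G_ok c hO) (Cyl58.isClopen_pc W.toCaps h)
  rw [Num57.lad99 (Λ.B_ok c c) (Λ.G_ok c hO), Num57.eud99, Num57.sgd99] at e
  have e' : 2 * l2 + 2 * β = n := (congrArg₂ (2 * · + 2 * ·) e3 e1).symm.trans e
  obtain ⟨_, _, _, _, _, _, e4, e5, -⟩ := hN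
  obtain ⟨m, e4⟩ : ∃ m : ℤ, β = m := ⟨1 - _ + _, e4.trans (by push_cast; rfl)⟩
  obtain ⟨m', e5⟩ : ∃ m : ℤ, sg = m := ⟨_ - _, e5.trans (by push_cast; rfl)⟩
  exact ⟨n - 2 * m - 2 * m', by push_cast; linarith⟩

end Crest.Agent.X212.Sm42
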