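import Crest.Agent.X212.Tm38.Sm

/-!
# Row 212, SUMS (helper42): the pieces on one side of a wall, closed up beyond it, and their numbers
-/

set_option autoImplicit false
set_option linter.unusedSectionVars false
noncomputable section
open Set Function
open scoped ContDiff Manifold

namespace Crest.Agent.X212.Sm42
open M Sid48 Dr59 Num57 G75 Tm38

section sys
variable {X A : Type} [TopologicalSpace X] [PreconnectedSpace X] [Nonempty X] [Fintype A]
  [DecidableEq A] {S : Sys X A} {c cb : Finset A} {a x : A} {b b' : Bool} {π π' ρ : Reg A}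
  {R : Finset (Reg A)}

theorem side_uq {w : Wall X} {s : Set X} (hs : s.Nonempty) (h : s ⊆ w.sd b) (h' : s ⊆ w.sd b') : b = b' :=
  let ⟨_, k⟩ := hs
  w.sd_inj (h k) (h' k)

theorem band_ne (w : Wall X) : w.band.Nonempty := (w.ne true).mono inter_subset_left

theorem not_self (h : (S.w a).band ⊆ (S.w a).sd b) : False :=
  let ⟨_, k⟩ := (S.w a).ne (!b)
  (S.w a).not_mem_sd (h k.1) k.2

theorem nest' {w w' : Wall X} (h1 : w'.band ⊆ w.sd b) (h2 : w.band ⊆ w'.sd b') :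
    w.sd (!b) ⊆ w'.sd b' :=
  let ⟨_, k⟩ := w.ne b
  subset_union_left.trans (w'.subset_sd (w.conn_ext _) (disjoint_left.2 fun _ i j => i.elim
    (w.not_mem_sd (h1 (w'.core_subset j))) fun i => j _ (h2 i)) (.inr k.1) (h2 k.1))

theorem sum_sub {V : Type} [AddCommMonoid V] {B : Finset A} (T : Finset B) (T' : Finset A)
    (h : ∀ x, x ∈ T' ↔ ∃ k : x ∈ B, ⟨x, k⟩ ∈ T) (f : A → V) : ∑ l ∈ T, f l = ∑ x ∈ T', f x := by
  rw [show T' = T.map (.subtype _) from Finset.ext fun x => by simp [h], Finset.sum_map]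
  rfl

theorem card_sub {B : Finset A} (T : Finset B) (T' : Finset A)
    (h : ∀ x, x ∈ T' ↔ ∃ k : x ∈ B, ⟨x, k⟩ ∈ T) : T.card = T'.card := by
  simpa using sum_sub T T' h fun _ => (1 : ℕ)

theorem side_eq (h : S.IsReg π) (k : S.U π ⊆ (S.w a).sd b) (e : π a = some b') : b' = b :=
  side_uq h.nonempty (fun _ i => i a b' e) k

theorem upd_some : update π a none x = some b ↔ x ≠ a ∧ π x = some b := by
  by_cases e : x = a <;> simp [e]

theorem U_upd (h : S.IsReg π) (k : S.U π ⊆ (S.w a).sd b) :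
    S.U π = S.U (update π a none) ∩ (S.w a).sd b :=
  Subset.antisymm (subset_inter (fun _ i x b' e => i x b' (upd_some.1 e).2) k) fun _ i x b' e => by
    by_cases j : x = a
    · subst j; exact side_eq h k e ▸ i.2
    · exact i.1 x b' (upd_some.2 ⟨j, e⟩)

variable (S a b c cb R) in
/-- `cb` are the walls of `c`, `R` the pieces of `insert a c` on the side `b` of `a` -/
structure Sd : Prop where
  cell : S.Cell ↑(insert a c)
  nm : a ∉ c
  cb : ∀ x, x ∈ cb ↔ x ∈ c ∧ (S.w x).band ⊆ (S.w a).sd b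
  R : ∀ π, π ∈ R ↔ S.Piece ↑(insert a c) π ∧ S.U π ⊆ (S.w a).sd b

namespace Sd
variable (H : Sd S c cb a b R)
include H

theorem sub : (↑cb : Set A) ⊆ ↑(insert a c) := fun x k => Finset.mem_insert_of_mem ((H.cb x).1 k).1

theorem cell' : S.Cell ↑cb := H.cell.mono H.sub

theorem adj (hx : x ∈ insert a c) (k : (S.w x).half b' ⊆ (S.w a).sd b) : ∃ π ∈ R, π x = some b' := by
  obtain ⟨π, h, e⟩ := (Sys.existsUnique_adj H.cell hx b').exists
  obtain ⟨b'', j⟩ := h.side H.cell (Finset.mem_insert_self a c)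
  exact ⟨π, (H.R π).2 ⟨h, side_uq ((S.w x).ne b') ((h.adj x b' e).trans j) k ▸ j⟩, e⟩

theorem piece_upd (h : π ∈ R) : S.Piece ↑cb (update π a none) := by
  obtain ⟨h, k⟩ := (H.R π).1 h
  have e : Sys.bd (update π a none) ⊆ ↑cb := fun x i => by
    obtain ⟨b', i⟩ := Sys.mem_bd.1 i
    obtain ⟨n, i⟩ := upd_some.1 i
    have m := h.bd_subset (Sys.mem_bd_of i)
    obtain ⟨y, hy⟩ := (S.w x).ne b'
    exact (H.cb x).2 ⟨(Finset.mem_insert.1 m).resolve_left n, Wall.band_subset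
      (H.cell (Finset.mem_insert_self a c) m (Ne.symm n)) hy.1 (k (h.adj x b' i hy))⟩
  refine ⟨⟨H.cell'.mono e, fun x b' i => (h.adj x b' (upd_some.1 i).2).trans
    ((U_upd h.toIsReg k).le.trans inter_subset_left)⟩, e, fun x hx i => ?_⟩
  obtain ⟨m, j⟩ := (H.cb x).1 hx
  have n : x ≠ a := fun e => H.nm (e ▸ m)
  have z : π x = none := (update_of_ne n _ _).symm.trans i.1
  exact h.not_inn x (H.sub hx) ⟨z, (subset_inter i.2.1 j).trans (U_upd h.toIsReg k).ge,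
    fun y hy => H.cell (H.sub hx) (h.bd_subset hy) fun e => hy (e ▸ z)⟩

theorem upd_inj (h : π ∈ R) (h' : π' ∈ R) (e : update π a none = update π' a none) : π = π' := by
  obtain ⟨h, k⟩ := (H.R π).1 h
  obtain ⟨h', k'⟩ := (H.R π').1 h'
  obtain ⟨y, hy⟩ := h.toIsReg.nonempty
  exact h.unique H.cell h' hy (by rwa [U_upd h'.toIsReg k', ← e, ← U_upd h.toIsReg k])

theorem one : ∃ π ∈ R, π a = some b ∧ ∀ π' ∈ R, π' ≠ π → π' a = none := by
  obtain ⟨π, h, e⟩ := H.adj (Finset.mem_insert_self a c) inter_subset_right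
  refine ⟨π, h, e, fun π' h' n => by_contra fun k => n ?_⟩
  obtain ⟨b', k⟩ := Option.ne_none_iff_exists'.1 k
  obtain ⟨h', j⟩ := (H.R π').1 h'
  exact (Sys.existsUnique_adj H.cell (Finset.mem_insert_self a c) b).unique
    ⟨h', side_eq h'.toIsReg j k ▸ k⟩ ⟨((H.R π).1 h).1, e⟩

theorem upd_surj (h : S.Piece ↑cb ρ) : ∃ π ∈ R, update π a none = ρ := by
  by_cases e : ∃ x b', ρ x = some b'
  · obtain ⟨x, b', e⟩ := e
    have m := h.bd_subset (Sys.mem_bd_of e)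
    obtain ⟨π, k, i⟩ := H.adj (b' := b') (H.sub m) (inter_subset_left.trans ((H.cb x).1 m).2)
    exact ⟨π, k, (Sys.existsUnique_adj H.cell' m b').unique
      ⟨H.piece_upd k, upd_some.2 ⟨fun j => H.nm (j ▸ ((H.cb x).1 m).1), i⟩⟩ ⟨h, e⟩⟩
  · obtain ⟨π, k, -⟩ := H.one
    obtain ⟨y, hy⟩ := (H.piece_upd k).toIsReg.nonempty
    exact ⟨π, k, (H.piece_upd k).unique H.cell' h hy fun x b' i => (e ⟨x, b', i⟩).elim⟩

theorem sum_upd {V : Type} [AddCommMonoid V] (f : Reg A → V) :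
    ∑ π ∈ R, f (update π a none) = ∑ ρ ∈ pcs S cb, f ρ :=
  Finset.sum_nbij (update · a none) (fun _ h => mem_pcs.2 (H.piece_upd h))
    (fun _ h _ h' => H.upd_inj h h') (fun _ h => H.upd_surj (mem_pcs.1 h)) fun _ _ => rfl

/-- the region that contains a further wall -/
theorem exists_inn (hx : x ∉ c) (k : (S.w x).band ⊆ (S.w a).sd b) (hc : ∀ y ∈ insert a c, x ≠ y → S.Cmp x y) :
    ∃ π ∈ R, x ∈ S.inn π := by
  have n : x ∉ insert a c := fun i => (Finset.mem_insert.1 i).elim (fun e => not_self (e ▸ k)) hx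
  obtain ⟨π, h, i⟩ := (Sys.existsUnique_inn H.cell n fun y hy => hc y hy fun e => n (e ▸ hy)).exists
  obtain ⟨b', j⟩ := h.side H.cell (Finset.mem_insert_self a c)
  exact ⟨π, (H.R π).2 ⟨h, side_uq (band_ne _) (i.2.1.trans j) k ▸ j⟩, i⟩

theorem of_inn (h : π ∈ R) (i : x ∈ S.inn π) : x ∉ c ∧ (S.w x).band ⊆ (S.w a).sd b :=
  ⟨fun k => ((H.R π).1 h).1.not_inn x (Finset.mem_insert_of_mem k) i, i.2.1.trans ((H.R π).1 h).2⟩

end Sd
end sys

variable {κ lam : Type} [Fintype κ] [Fintype lam] [DecidableEq lam] {Lm : LM κ lam} {S : Scene Lm}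
  {i i' : S.L} {U V : Set S.X.M}

theorem nb_hl (h : HL S.X.I S.M.o U) (i : S.L) : ∃ β sg l2, S.Nb i U β sg l2 :=
  ⟨_, _, _, nb_of_lat i h.lat.some.h⟩

/-- isomorphic lines have the same numbers -/
theorem nb_uni {w β sg l2} (u : Line51.Uni S.X.I (S.N i).p (S.N i').p w U) (h : S.Nb i U β sg l2) :
    S.Nb i' U β sg l2 := by
  obtain ⟨_, _, _, _, _, k, -⟩ := id h
  obtain ⟨rfl, rfl, rfl⟩ := nb_eq h k
  have e := Line51.Uni.ex_F (L := ⟨(S.N i).p, 0⟩) (L' := ⟨(S.N i').p, 0⟩) k.op u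
    ((S.N i).ok.mono (subset_univ _)) ((S.N i').ok.mono (subset_univ _))
  rw [← isq_coh k (cl_FL k.op).sm (cl_FL k.op).sm (cl_FL k.op).sm (cl_FL k.op).sm e e]
  exact nb_of_lat i' k

theorem hl_sd {s : S.A} (hs : S.M.pin s) (b : Bool) : HL S.X.I S.M.o ((S.M.sys.w s).sd b) := by
  have := S.M.cpt
  have k := (ct_sides (Cyl58.sides_band (S.M.bn s)) (hz_rnd (S.M.rnd s hs)) isOpen_univ
    (subset_univ _) b).hl (hl_univ S.M.ori)
  rwa [univ_inter] at k

/-- **the numbers add up** inside an open set `V` -/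
theorem sum_in {c : Finset S.A} (hc : S.M.sys.Cell ↑c) (hp : ∀ a ∈ c, S.M.pin a) (hV : HL S.X.I S.M.o V)
    (hb : ∀ a ∈ c, (S.M.sys.w a).band ⊆ V) {b s l : ℝ} (h0 : S.Nb i V b s l) :
    (∀ ρ ∈ pcs S.M.sys c, HL S.X.I S.M.o (S.M.sys.U ρ ∩ V)) ∧ ∀ β t : Reg S.A → ℝ,
      (∀ ρ ∈ pcs S.M.sys c, ∃ sg l2, S.Nb i (S.M.sys.U ρ ∩ V) (β ρ) sg l2 ∧ t ρ = l2 - sg) →
      ∑ ρ ∈ pcs S.M.sys c, β ρ = b + c.card ∧ ∑ ρ ∈ pcs S.M.sys c, t ρ = l - s := by
  have := S.M.con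
  have := S.M.cpt
  obtain ⟨e0, e⟩ := sum_pcs (P := fun W => HL S.X.I S.M.o (W ∩ V))
    (ν := fun W => nu S.X.I S.M.o (FL S i) (FL S i) (W ∩ V)) (by rwa [univ_inter]) hc
    fun a ha W w s => by
      have t := ct_sides (Cyl58.sides_band (S.M.bn a)) (hz_rnd (S.M.rnd a (hp a ha))) w.op
        (subset_inter s (hb a ha))
      simp only [inter_right_comm W _ V]
      exact ⟨fun b => (t b).hl w, (t true).nu w (cl_FL w.op) (cl_FL w.op)⟩
  refine ⟨e0, fun β t h => ?_⟩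
  choose! sg l2 h1 h2 using h
  rw [univ_inter] at e
  rw [(nb_nu h0).2, (nb_nu h0).1, ← e, Finset.sum_congr rfl fun ρ k => (nb_nu (h1 ρ k)).1,
    Finset.sum_congr rfl fun ρ k => (h2 ρ k).trans (nb_nu (h1 ρ k)).2]
  simp only [Finset.sum_add_distrib, Finset.sum_sub_distrib, Prod.fst_sum, Prod.snd_sum, Finset.sum_div,
    Finset.sum_const, card_pcs hc, nsmul_eq_mul, Nat.cast_add, Nat.cast_one, and_true]
  ring

end Crest.Agent.X212.Sm42
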