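import Crest.Agent.X212.Nd18.Fk
import Crest.Agent.X212.Kl48.Job
import Crest.Agent.X212.Fex7.Iso
import Crest.Agent.X212.Sm42.Top
import Crest.Agent.X212.Sm42.Lad

/-!
# Row 212, SUMS + INT (helper42): `Fk18.SmStmt`, `Fk18.IntStmt`
-/

set_option autoImplicit false
set_option linter.unusedSectionVars false
noncomputable section
open scoped Manifold ContDiff Topology
open MeasureTheory Set Function Filter Classical

namespace Crest.Agent.X212.Sm42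
open An M G75 Ins26 Nd18 Sid48
open Rf65 (hp)
open Fk18 (Pk Z0 Z1 pe Rg DR NbR bR sR nu_eq)
open Kl48 hiding ou
open An.Job (Sol)

variable {κ lam : Type} [Fintype κ] [Fintype lam] [DecidableEq lam] {Lm : LM κ lam}
  {y₀ : G75.YD κ lam} {S : Scene Lm}

local instance con : ConnectedSpace S.X.M := S.M.con

section ord
variable {t : TD y₀ S} {R : ℕ} {c : Cn S.L S.A} (hy : y₀.OK) (ht : t.OK R c)
include hy ht

theorem pin_s : S.M.pin t.s :=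
  have e0 : t.IH.f 2 = y₀.s := congrFun ht.hf0.1 2
  have e1 : t.IH.f' 2 = t.s := congrFun ht.hf0.2 2
  e1 ▸ (t.IH.pin 2).2 (e0 ▸ hy.pin.2.2.1)

theorem h_s : (S.M.sys.w t.h).band ⊆ (S.M.sys.w t.s).sd false ∧
    (S.M.sys.w t.s).band ⊆ (S.M.sys.w t.h).sd true := by
  have e0 : t.IH.f 1 = y₀.h := congrFun ht.hf0.1 1
  have e1 : t.IH.f 2 = y₀.s := congrFun ht.hf0.1 2
  rw [← show t.IH.f' 1 = t.h from congrFun ht.hf0.2 1, ← show t.IH.f' 2 = t.s from congrFun ht.hf0.2 2]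
  exact ⟨Fex7.band_sub _ (by rw [e0, e1]; exact hy.rev.2.1),
    Fex7.band_sub _ (by rw [e0, e1]; exact hy.hs.2)⟩

theorem h_a : (S.M.sys.w t.h).sd true ⊆ (S.M.sys.w t.a).sd true :=
  nest' (b := false) (Fex7.a_h hy ht).1 (Fex7.a_h hy ht).2

theorem a_h : (S.M.sys.w t.a).sd false ⊆ (S.M.sys.w t.h).sd false :=
  nest' (b := true) (Fex7.a_h hy ht).2 (Fex7.a_h hy ht).1

theorem a_s : (S.M.sys.w t.a).sd false ⊆ (S.M.sys.w t.s).sd false :=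
  (a_h hy ht).trans (nest' (b := true) (h_s hy ht).2 (h_s hy ht).1)

theorem ls_r {l : S.A} (hl : l ∈ S.ls) : (S.M.sys.w l).band ⊆ (S.M.sys.w t.a).sd true :=
  fun _ k => h_a hy ht (ht.ls l hl (.inr k)).1

end ord

/-- **LEAF INT** -/
theorem int (Lm : LM κ lam) : Fk18.IntStmt Lm := fun _ S t _ _ _ hy ht hc _ =>
  have H : Lf S.M.sys {t.s} ∅ {t.s} := ⟨pairwise_singleton _ _, by simp, by simp, by simp⟩
  two_nb hc.ok (c := ⟨{t.s}, H.cell⟩) (fun _ k => k ▸ pin_s hy ht)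
    (H.piece_hp (Finset.mem_singleton_self _)) (U_hp (S := S.M.sys) ▸ ht.nb)

/-- the broken lens walls -/
def LL (e : S.M.Cl) : Finset S.A := {x | x ∈ e.1 ∧ x ∈ S.ls}

variable {e : S.M.Cl} {x l : S.A} {π ρ : Reg S.A} {b : Bool} {Q : Finset (Reg S.A)}

theorem mem_LL : x ∈ LL e ↔ x ∈ e.1 ∧ x ∈ S.ls := by simp [LL]

theorem mem_pe : x ∈ pe e ↔ x ∈ e.1 ∧ S.M.pin x := by simp [pe]

theorem mem_LE {l : S.ls} : l ∈ Fk18.LE e π ↔ l.1 ∈ e.1 ∧ l.1 ∈ S.M.sys.inn π := by simp [Fk18.LE]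

theorem mem_DR {l : S.ls} {H : Set S.ls} : l ∈ DR H π ↔ l ∉ H ∧ l.1 ∈ S.M.sys.inn π := by simp [DR]

theorem ou_eq : Fk18.ou e π = Kl48.ou S.M.sys (LL e) π := funext fun x => by
  simp only [Fk18.ou, Kl48.ou, mem_fi, mem_LL, and_assoc]

theorem fi_LE : x ∈ fi S.M.sys (LL e) π ↔ ∃ k : x ∈ S.ls, ⟨x, k⟩ ∈ Fk18.LE e π := by
  simp only [mem_fi, mem_LL, mem_LE]
  tauto

theorem cmp_ls (hS : S.OK) (hx : x ∈ S.ls) (hl : l ∈ S.ls) (k : x ≠ l) : S.M.sys.Cmp x l :=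
  (hS.lsd x hx l hl k).mono subset_union_right subset_union_right

variable {P : Pk y₀} {z : Z0 P S} {Z : Z1 z} {R : ℕ} {T : ℝ} (h0 : z.OK R) (h1 : Z.OK T)
include h0 h1

theorem cellσ : S.M.sys.Cell (↑Z.σ ∪ ↑S.fz) ∧ Disjoint Z.σ S.fz :=
  h0.cn.ok.cell _ _ (h0.cn.cl.mem _ _ h1.c).1

theorem kind (h : x ∈ Z.σ) : S.M.pin x ∨ x ∈ S.ls := (h0.cn.cl.mem _ _ h1.c).2.2 x h

theorem mem_τ (h : x ∈ Z.e.1) (k : S.M.pin x ∨ x ∈ S.ls) : x ∈ Z.τ :=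
  have a := h0.cn.ok.fz _ h0.t.fz.1
  (h1.e h).resolve_left fun e : x = _ => k.elim (e ▸ a.1) (e ▸ a.2.1)

theorem pe_σ : pe Z.e ⊆ Z.σ := fun _ k => h1.sub (mem_τ h0 h1 (mem_pe.1 k).1 (.inl (mem_pe.1 k).2))

theorem c0_sub : ↑(insert z.t.a (pe Z.e)) ⊆ (↑Z.σ ∪ ↑S.fz : Set S.A) := fun _ k =>
  (Finset.mem_insert.1 k).elim (fun e => .inr (e ▸ h0.t.fz.1)) fun i => .inl (pe_σ h0 h1 i)

theorem lf : Lf S.M.sys Z.e.1 (insert z.t.a (pe Z.e)) (LL Z.e) :=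
  have hS := h0.cn.ok
  ⟨Z.e.2, fun x => by
      rw [Finset.mem_insert, mem_pe, mem_LL]
      exact ⟨fun k => (h1.e k).elim (.inl ∘ .inl) fun i =>
        (kind h0 h1 (h1.sub i)).imp (fun j => .inr ⟨k, j⟩) (⟨k, ·⟩),
        fun k => k.elim (fun k => k.elim (· ▸ h1.a) And.left) And.left⟩,
    fun x k j => (Finset.mem_insert.1 k).elim (fun e => (hS.fz _ h0.t.fz.1).2.1 (e ▸ (mem_LL.1 j).2))
      fun i => hS.lsp x (mem_LL.1 j).2 (mem_pe.1 i).2,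
    fun l hl a ha k => hS.lsi l (mem_LL.1 hl).2 a k (Z.e.2 ha (mem_LL.1 hl).1 k)⟩

theorem sdd (b : Bool) : Sd S.M.sys (pe Z.e) (z.t.sd b (pe Z.e)) z.t.a b (Z.Rg b) :=
  ⟨(lf h0 h1).cell₀, fun k => (h0.cn.ok.fz _ h0.t.fz.1).1 (mem_pe.1 k).2, fun _ => Finset.mem_filter,
    fun _ => by simp [Rg, TD.Pc]⟩

theorem pcR (h : π ∈ Z.Rg b) : S.M.sys.Piece ↑(insert z.t.a (pe Z.e)) π := (((sdd h0 h1 b).R π).1 h).1

theorem pcU (h : π ∈ Z.Rg false ∪ Z.Rg true) : S.M.sys.Piece ↑(insert z.t.a (pe Z.e)) π :=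
  (Finset.mem_union.1 h).elim (pcR h0 h1) (pcR h0 h1)

theorem rg_of (h : S.M.sys.Piece ↑(insert z.t.a (pe Z.e)) π) : ∃ b, π ∈ Z.Rg b :=
  let ⟨b, j⟩ := h.side (lf h0 h1).cell₀ (Finset.mem_insert_self _ _)
  ⟨b, ((sdd h0 h1 b).R π).2 ⟨h, j⟩⟩

theorem dis : Disjoint (Z.Rg false) (Z.Rg true) :=
  Finset.disjoint_left.2 fun π h h' => Bool.noConfusion (side_uq (pcR h0 h1 h).toIsReg.nonempty
    (((sdd h0 h1 _).R π).1 h).2 (((sdd h0 h1 _).R π).1 h').2)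

theorem cnt (hQ : Q ⊆ Z.Rg false ∪ Z.Rg true) (B : Finset S.A) :
    ∑ π ∈ Q, (↑B ∩ S.M.sys.inn π).ncard = (iN S.M.sys Q B).card := by
  simp only [ncard_fi]
  exact_mod_cast card_iN (B := B) (lf h0 h1).cell₀ fun π k => pcU h0 h1 (hQ k)

omit h0 h1 in
theorem rg_sub (b : Bool) : Z.Rg b ⊆ Z.Rg false ∪ Z.Rg true := by
  cases b
  exacts [Finset.subset_union_left, Finset.subset_union_right]

theorem inn_σ (h : x ∈ (↑Z.σ ∪ ↑S.fz : Set S.A)) (k : x ∉ pe Z.e) (i : z.t.Sd b x) :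
    ∃ π ∈ Z.Rg b, x ∈ S.M.sys.inn π :=
  (sdd h0 h1 b).exists_inn k i fun _ j => (cellσ h0 h1).1 h (c0_sub h0 h1 j)

theorem inn_ls (hl : l ∈ S.ls) (k : ∀ a ∈ pe Z.e, S.M.sys.Cmp a l) :
    ∃ π ∈ Z.Rg true, l ∈ S.M.sys.inn π :=
  (sdd h0 h1 true).exists_inn (fun i => h0.cn.ok.lsp l hl (mem_pe.1 i).2) (ls_r h0.p.y h0.t hl)
    fun y j _ => (Finset.mem_insert.1 j).elim
      (fun e => e ▸ ((h0.cn.ok.fz _ h0.t.fz.1).2.2 l hl).2.symm) fun j => (k y j).symm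

theorem no_ls (h : π ∈ Z.Rg false) (hl : l ∈ S.ls) : l ∉ S.M.sys.inn π := fun i =>
  not_both (ls_r h0.p.y h0.t hl) ((sdd h0 h1 false).of_inn h i).2

theorem top (h : z.t.sd b (pe Z.e) = ∅) : Z.Rg b = {hp z.t.a b} := by
  have H := sdd h0 h1 b
  obtain ⟨π₀, k, e0, -⟩ := H.one
  have u : ∀ π ∈ Z.Rg b, ∀ x, update π z.t.a none x = none := fun π i x => by_contra fun j => by
    simpa [h] using (H.piece_upd i).bd_subset j
  obtain rfl : π₀ = hp z.t.a b := funext fun x => by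
    by_cases j : x = z.t.a
    · rw [j, e0, hp_self]
    · rw [hp_none.2 j, ← u π₀ k x, update_of_ne j]
  exact Finset.eq_singleton_iff_unique_mem.2
    ⟨k, fun π i => H.upd_inj i k (funext fun x => (u _ i x).trans (u _ k x).symm)⟩

theorem nm {B : Finset S.A} (k1 : pe Z.e ⊆ B) (k2 : B ⊆ Z.σ) (b : Bool) :
    ∑ π ∈ Z.Rg b, S.nm B π + (z.t.sd b (pe Z.e)).card = (z.t.sd b B).card := by
  rw [show ∑ π ∈ Z.Rg b, S.nm B π = _ from cnt h0 h1 (rg_sub b) B,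
    show iN S.M.sys (Z.Rg b) B = z.t.sd b B \ z.t.sd b (pe Z.e) from Finset.ext fun x => ?_]
  · exact Finset.card_sdiff_add_card_eq_card (Finset.filter_subset_filter _ k1)
  simp only [mem_iN, TD.sd, Finset.mem_sdiff, Finset.mem_filter]
  exact ⟨fun ⟨i, π, j, k⟩ => let ⟨a, a'⟩ := (sdd h0 h1 b).of_inn j k; ⟨⟨i, a'⟩, fun m => a m.1⟩,
    fun ⟨i, j⟩ => ⟨i.1, inn_σ h0 h1 (.inl (k2 i.1)) (fun m => j ⟨m, i.2⟩) i.2⟩⟩

theorem sd_card {B : Finset S.A} (k : B ⊆ Z.σ) :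
    (z.t.sd false B).card + (z.t.sd true B).card = B.card := by
  rw [TD.sd, TD.sd, ← Finset.card_union_of_disjoint
    (Finset.disjoint_filter.2 fun x _ (i : z.t.Sd false x) (j : z.t.Sd true x) => not_both j i),
    ← Finset.filter_or, Finset.filter_true_of_mem fun x i => ?_]
  obtain ⟨_ | _, j⟩ := Wall.exists_side ((cellσ h0 h1).1 (.inr h0.t.fz.1) (.inl (k i))
    fun e => Finset.disjoint_left.1 (cellσ h0 h1).2 (k i) (e ▸ h0.t.fz.1))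
  exacts [.inl j, .inr j]

theorem nh : ∑ π ∈ Z.Rg true, S.nh π + S.nd (pe Z.e) = S.ls.card := by
  rw [show ∑ π ∈ Z.Rg true, S.nh π = _ from cnt h0 h1 (rg_sub true) _, Scene.nd,
    show {l | l ∈ S.ls ∧ ∃ a ∈ pe Z.e, ¬S.M.sys.Cmp a l} = ↑(S.ls \ iN S.M.sys (Z.Rg true) S.ls) from
      Set.ext fun l => ?_, ncard_coe_finset, add_comm]
  · exact Finset.card_sdiff_add_card_eq_card (Finset.filter_subset _ _)
  simp only [mem_ofPred_eq, Finset.mem_coe, Finset.mem_sdiff, mem_iN]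
  refine and_congr_right fun hl => ⟨fun ⟨a, i, j⟩ ⟨_, π, k, m⟩ => j (inn_cmp (lf h0 h1).cell₀
    (pcR h0 h1 k) m (Finset.mem_insert_of_mem i)).symm, fun k => by_contra fun j => ?_⟩
  push Not at j
  exact k ⟨hl, inn_ls h0 h1 hl j⟩

theorem nd0 (h : z.t.sd true (pe Z.e) = ∅) : S.nd (pe Z.e) = 0 := by
  refine (ncard_eq_zero (toFinite _)).2 (eq_empty_of_forall_notMem fun l ⟨hl, a, i, j⟩ => j ?_)
  obtain ⟨_ | _, k⟩ := Wall.exists_side ((lf h0 h1).cell₀ (Finset.mem_insert_self _ _)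
    (Finset.mem_insert_of_mem i) fun e => (sdd h0 h1 true).nm (e ▸ i))
  · exact disjoint_left.2 fun _ p q => Wall.not_mem_sd _ (k p) (ls_r h0.p.y h0.t hl q)
  · exact (Finset.notMem_empty a (h ▸ ((sdd h0 h1 true).cb a).2 ⟨i, k⟩)).elim

theorem nc : z.t.G.card ≤ ∑ π ∈ Z.Rg true, z.t.nc π := by
  rw [show ∑ π ∈ Z.Rg true, z.t.nc π = _ from cnt h0 h1 (rg_sub true) _]
  exact Finset.card_le_card fun x k => mem_iN.2 ⟨k, inn_σ h0 h1 (.inr (h0.t.fz.2.2.2 k))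
    (fun i => (h0.cn.ok.fz x (h0.t.fz.2.2.2 k)).1 (mem_pe.1 i).2)
    ((h0.t.G x k).trans (h_a h0.p.y h0.t))⟩

/-- the sums over one side -/
theorem sums {i : S.L} {V : Set S.X.M} (hV : Dr59.HL S.X.I S.M.o V) (k : (S.M.sys.w z.t.a).sd b ⊆ V)
    {β s l2 : ℝ} (hN : S.Nb i V β s l2) (h : ∀ π ∈ Z.Rg b, ∀ β s l2,
      S.Nb i (z.t.op π ∩ V) β s l2 → NbR z.t Z.i π β s l2) :
    ∑ π ∈ Z.Rg b, bR z.t Z.i π = β + (z.t.sd b (pe Z.e)).card ∧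
      ∑ π ∈ Z.Rg b, sR z.t Z.i π = l2 - s := by
  have H := sdd h0 h1 b
  obtain ⟨e0, e1⟩ := sum_in H.cell' (fun a j => (mem_pe.1 ((H.cb a).1 j).1).2) hV
    (fun a j => ((H.cb a).1 j).2.trans k) hN
  choose! β' s' l' hn using fun ρ j => nb_hl (e0 ρ j) i
  obtain ⟨e2, e3⟩ := e1 β' (fun ρ => l' ρ - s' ρ) fun ρ j => ⟨_, _, hn ρ j, rfl⟩
  have e4 := fun π j => nu_eq (h π j _ _ _ (hn _ (mem_pcs.2 (H.piece_upd j))))
  rw [← e2, ← e3, ← H.sum_upd, ← H.sum_upd]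
  exact ⟨Finset.sum_congr rfl fun π j => by rw [bR, e4 π j],
    Finset.sum_congr rfl fun π j => by rw [sR, e4 π j]⟩

theorem sL : ∑ π ∈ Z.Rg false, bR z.t Z.i π = z.t.β₀ + (z.t.sd false (pe Z.e)).card ∧
    ∑ π ∈ Z.Rg false, sR z.t Z.i π = z.t.l₀ - z.t.s₀ := by
  refine sums h0 h1 (hl_sd (pin_s h0.p.y h0.t) false) (a_s h0.p.y h0.t) h0.t.nb fun π j β s l2 k => ?_
  unfold NbR
  split_ifs with i
  · exact k
  obtain ⟨p, q⟩ := ((sdd h0 h1 false).R π).1 j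
  have n : π z.t.a = none := by_contra fun m =>
    let ⟨_, m⟩ := Option.ne_none_iff_exists'.1 m
    i (side_eq p.toIsReg q m ▸ m)
  have u : z.t.op π ⊆ (S.M.sys.w z.t.a).sd false := by rwa [TD.op, ← n, update_eq_self]
  rw [inter_eq_left.2 (u.trans (a_s h0.p.y h0.t))] at k
  exact nb_uni ((h0.t.left Z.i).uni.mono (u.trans ((a_h h0.p.y h0.t).trans subset_union_left))) k

theorem sR' : ∑ π ∈ Z.Rg true, (sR z.t Z.i π / 2 - 3 * bR z.t Z.i π) =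
    d0 S Z.i - 3 * (z.t.sd true (pe Z.e)).card := by
  have := S.M.cpt
  obtain ⟨β, s, l2, k⟩ := exists_nb_univ Z.i
  obtain ⟨e1, e2⟩ := sums h0 h1 (b := true) (Dr59.hl_univ S.M.ori) (subset_univ _) k
    fun π j β s l2 k => by
      obtain ⟨p, q⟩ := ((sdd h0 h1 true).R π).1 j
      rw [NbR, if_neg fun m => Bool.noConfusion (side_eq p.toIsReg q m)]
      rwa [inter_univ] at k
  rw [Finset.sum_sub_distrib, ← Finset.sum_div, ← Finset.mul_sum, e1, e2, d0_eq k]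
  ring

theorem sdp (h : Z.e.1 = {z.t.a}) : (∀ b, sdP z.t Z.e b = {hp z.t.a b}) ∧ Z.J.unc Z.e = univ := by
  have a := h0.cn.ok.fz _ h0.t.fz.1
  have e0 : pe Z.e = ∅ := Finset.eq_empty_of_forall_notMem fun x k =>
    a.1 ((show x = z.t.a from h.le (mem_pe.1 k).1) ▸ (mem_pe.1 k).2)
  refine ⟨fun b => ?_, eq_univ_of_forall fun l => h0.cn.ok.unc_of l fun x k _ =>
    (show x = z.t.a from h.le k) ▸ (a.2.2 l l.2).2⟩
  rw [← Finset.coe_singleton, ← top h0 h1 (by simp [e0, TD.sd])]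
  ext π
  simp [sdP, Rg, TD.Pc, e0, h]

theorem card_LE (hQ : Q ⊆ Z.Rg false ∪ Z.Rg true) :
    ∑ π ∈ Q, (Fk18.LE Z.e π).card = (iN S.M.sys Q (LL Z.e)).card := by
  rw [← cnt h0 h1 hQ]
  exact Finset.sum_congr rfl fun π _ => (card_sub _ _ fun _ => fi_LE).trans ncard_fi.symm

theorem inn_iff (h : π ∈ Z.Rg false ∪ Z.Rg true) (k : x ∈ Z.σ ∨ x ∈ S.ls ∧ x ∈ S.M.sys.inn π) :
    x ∈ S.M.sys.inn (Fk18.ou Z.e π) ↔ x ∈ S.M.sys.inn π ∧ x ∉ Z.e.1 := by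
  rw [ou_eq]
  refine ⟨fun i => ⟨(of_inn_ou i).1, fun j => ((lf h0 h1).piece_ou (pcU h0 h1 h)).not_inn x j i⟩,
    fun ⟨i, j⟩ => inn_ou (fun l hl => ?_) i⟩
  obtain ⟨m, n⟩ := mem_LL.1 hl
  have e0 : x ≠ l := fun e => j (e ▸ m)
  have c : S.M.sys.Cmp x l := k.elim (fun k => (cellσ h0 h1).1 (.inl k)
    (.inl (h1.sub (mem_τ h0 h1 m (.inr n)))) e0) fun k => cmp_ls h0.cn.ok k.1 n e0
  exact ⟨c, h0.cn.ok.lsi l n x e0 c⟩

theorem lvV (hQ : Q ⊆ Z.Rg false ∪ Z.Rg true) :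
    (Z.J.lv (shS S) Z.ce Z.e (Fk18.ou Z.e '' ↑Q)).ncard + ∑ π ∈ Q, (Fk18.LE Z.e π).card =
      ∑ π ∈ Q, S.nm Z.τ π := by
  rw [card_LE h0 h1 hQ, show ∑ π ∈ Q, S.nm Z.τ π = _ from cnt h0 h1 hQ _,
    show Z.J.lv (shS S) Z.ce Z.e (Fk18.ou Z.e '' ↑Q) =
      Sum.inl '' ↑(iN S.M.sys Q Z.τ \ iN S.M.sys Q (LL Z.e)) from ?_,
    ncard_image_of_injective _ Sum.inl_injective, ncard_coe_finset]
  · exact Finset.card_sdiff_add_card_eq_card (Finset.filter_subset_filter _ fun x k =>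
      mem_τ h0 h1 (mem_LL.1 k).1 (.inr (mem_LL.1 k).2))
  ext (x | u)
  · rw [Sum.inl_injective.mem_set_image, Finset.mem_coe, Finset.mem_sdiff, mem_iN, mem_iN]
    by_cases k : x ∈ Z.τ
    swap
    · simp [Job.lv, cel, k]
    have k' : x ∈ hard S ∅ := (kind h0 h1 (h1.sub k)).imp_right .inl
    have e0 : Sum.inl x ∈ Z.J.lv (shS S) Z.ce Z.e (Fk18.ou Z.e '' ↑Q) ↔
        x ∉ Z.e.1 ∧ ∃ π ∈ Q, x ∈ S.M.sys.inn (Fk18.ou Z.e π) := by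
      simp [Job.lv, cel, shS, k, k']
    rw [e0]
    refine ⟨fun ⟨i, π, j, m⟩ => ⟨⟨k, π, j, ((inn_iff h0 h1 (hQ j) (.inl (h1.sub k))).1 m).1⟩,
      fun n => i (mem_LL.1 n.1).1⟩, fun ⟨⟨_, π, j, m⟩, n⟩ => ?_⟩
    have i : x ∉ Z.e.1 := fun i => (((lf h0 h1).mem x).1 i).elim
      (fun i => (pcU h0 h1 (hQ j)).not_inn x i m) fun i => n ⟨i, π, j, m⟩
    exact ⟨i, π, j, (inn_iff h0 h1 (hQ j) (.inl (h1.sub k))).2 ⟨m, i⟩⟩
  · exact iff_of_false (fun k => k.2.1 _ rfl h1.a) (by simp)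

theorem csH (hQ : Q ⊆ Z.Rg false ∪ Z.Rg true) (H : Set S.ls) : ∑ π ∈ Q, S.nh π ≤
    (Z.J.cs (Fk18.ou Z.e '' ↑Q) H).ncard + ∑ π ∈ Q, (Fk18.LE Z.e π ∪ DR H π).card := by
  rw [show ∑ π ∈ Q, S.nh π = _ from cnt h0 h1 hQ _, ← card_sub {l | l.1 ∈ iN S.M.sys Q S.ls} _
    fun x => ⟨fun k => ⟨(mem_iN.1 k).1, by simpa using k⟩, fun ⟨_, k⟩ => by simpa using k⟩,
    ncard_eq_toFinset_card _ (toFinite _)]
  refine (Finset.card_le_card fun l k => ?_).trans ((Finset.card_union_le _ _).trans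
    (Nat.add_le_add_left Finset.card_biUnion_le _))
  obtain ⟨-, π, j, m⟩ := mem_iN.1 (Finset.mem_filter.1 k).2
  rw [Finset.mem_union, Finite.mem_toFinset, Finset.mem_biUnion]
  by_cases i : l.1 ∈ Z.e.1 ∨ l ∉ H
  · exact .inr ⟨π, j, Finset.mem_union.2 (i.imp (mem_LE.2 ⟨·, m⟩) (mem_DR.2 ⟨·, m⟩))⟩
  · rw [not_or, not_not] at i
    exact .inl ⟨i.2, fun p q => mem_biUnion (mem_image_of_mem _ j) (h0.cn.ok.hf_U l
      ((inn_iff h0 h1 (hQ j) (.inr ⟨l.2, m⟩)).2 ⟨m, i.1⟩) (.inl q))⟩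

theorem bal {q} {y : Z.Ob} (hy : Sol Z.ce q y) : ∃ l : ℕ,
    ∑ π ∈ Z.Rg false, Z1.Kp y π + ∑ π ∈ Z.Rg true, Z1.Kp y π + y.k z.t.a + l = Z.J.k ∧
    y.l = l + ∑ π ∈ Z.Rg true, (DR y.H π).card := by
  have H := lf h0 h1
  have hS := h0.cn.ok
  have d : ∑ π ∈ Z.Rg true, (DR y.H π).card ≤ y.l := by
    refine .trans ?_ hy.drop
    rw [← Finset.card_biUnion fun π j π' j' n => Finset.disjoint_left.2 fun l a a' => n
      (inn_uniq H.cell₀ (pcR h0 h1 j) (pcR h0 h1 j') (mem_DR.1 a).2 (mem_DR.1 a').2),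
      ← ncard_coe_finset]
    refine ncard_le_ncard fun l k => ?_
    obtain ⟨π, j, m⟩ := Finset.mem_biUnion.1 k
    exact ⟨hS.unc_of l fun a i n => ((H.mem a).1 i).elim
      (fun i => (inn_cmp H.cell₀ (pcR h0 h1 j) (mem_DR.1 m).2 i).symm)
      fun i => cmp_ls hS (mem_LL.1 i).2 l.2 n, (mem_DR.1 m).1⟩
  obtain ⟨l, e0⟩ := Nat.exists_eq_add_of_le' d
  refine ⟨l, ?_, e0⟩
  have e1 : pcs S.M.sys (insert z.t.a (pe Z.e)) = Z.Rg false ∪ Z.Rg true := Finset.ext fun π =>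
    mem_pcs.trans ⟨fun k => let ⟨b, j⟩ := rg_of h0 h1 k; rg_sub b j, pcU h0 h1⟩
  have e2 : cylW Z.e = ↑(insert z.t.a (LL Z.e)) := Set.ext fun x => by
    rw [Finset.mem_coe, Finset.mem_insert]
    exact ⟨fun k => ((H.mem x).1 k.1).imp_left fun i => (Finset.mem_insert.1 i).resolve_right
      fun i => k.2 (mem_pe.1 i).2, fun k => k.elim (fun e => e ▸ ⟨h1.a, (hS.fz _ h0.t.fz.1).1⟩)
        fun k => ⟨(mem_LL.1 k).1, hS.lsp x (mem_LL.1 k).2⟩⟩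
  have e3 : ∑ a, (cylW Z.e).indicator y.k a = y.k z.t.a +
      ∑ π ∈ Z.Rg false ∪ Z.Rg true, ∑ l ∈ fi S.M.sys (LL Z.e) π, y.k l := by
    rw [e2, Finset.sum_indicator_subset _ (Finset.subset_univ _), Finset.sum_insert
      (H.dj _ (Finset.mem_insert_self _ _)), sum_iN H.cell₀ fun π => pcU h0 h1, ← e1, H.iN_L]
  have e4 : ∀ π, Z1.Kp y π = Z1.kp y (Kl48.ou S.M.sys (LL Z.e) π) +
      ∑ l ∈ fi S.M.sys (LL Z.e) π, Z1.kp y (hp l false) + ∑ l ∈ fi S.M.sys (LL Z.e) π, y.k l +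
      (DR y.H π).card := fun π => by
    rw [Z1.Kp, ou_eq, sum_sub _ _ (fun _ => fi_LE) fun l => Z1.kp y (hp l false) + y.k l,
      Finset.sum_add_distrib, ← add_assoc]
  have e5 : ∑ π ∈ Z.Rg false, ((DR y.H π).card : ℝ) = 0 := Finset.sum_eq_zero fun π j => by
    rw [Finset.eq_empty_of_forall_notMem fun l k => no_ls h0 h1 j l.2 (mem_DR.1 k).2]; simp
  have e6 := hy.lev
  rw [kap_sum hy.int, show ∑ᶠ ρ ∈ Rf65.Pc Z.e, y.kap (z.D.W.pc Z.e ρ) = _ from H.finsum_pc (Z1.kp y),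
    e3, e0, e1, Finset.sum_union (dis h0 h1), Finset.sum_union (dis h0 h1)] at e6
  simp only [e4, Finset.sum_add_distrib, e5] at e6 ⊢
  push_cast at e6
  linarith

omit h0 h1 in
/-- **LEAF SUMS** -/
theorem sm (Lm : LM κ lam) : Fk18.SmStmt Lm := fun _ _ S z _ Z _ h0 h1 =>
  have H := lf h0 h1
  { one b := (sdd h0 h1 b).one
    top _ := top h0 h1
    pc _ _ h := ou_eq (e := Z.e) ▸ ⟨H.piece_ou (pcR h0 h1 h), U_ou⟩
    cov _ h := (H.cases h).imp (fun ⟨π, k, e⟩ => let ⟨b, j⟩ := rg_of h0 h1 k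
      ⟨b, π, j, ou_eq.trans e.symm⟩) fun ⟨l, k, e⟩ => ⟨⟨l, (mem_LL.1 k).2⟩, (mem_LL.1 k).1, e.symm⟩
    ins _ _ h _ := (H.in_iff (pcR h0 h1 h)).trans (or_congr (by rw [ou_eq])
      ⟨fun ⟨l, k, e⟩ => let ⟨i, j⟩ := fi_LE.1 k; ⟨⟨l, i⟩, j, e.symm⟩,
        fun ⟨l, k, e⟩ => ⟨l, fi_LE.2 ⟨l.2, k⟩, e.symm⟩⟩)
    inj _ h _ h' e := H.ou_inj (pcU h0 h1 h) (pcU h0 h1 h') (by rwa [← ou_eq, ← ou_eq])
    dis := dis h0 h1
    le l k := (inn_ls h0 h1 l.2 fun a i => Z.e.2 (mem_pe.1 i).1 k fun e =>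
      h0.cn.ok.lsp l l.2 (e ▸ (mem_pe.1 i).2)).imp fun _ j => ⟨j.1, mem_LE.2 ⟨k, j.2⟩⟩
    uq _ _ h _ h' := inn_uniq H.cell₀ (pcU h0 h1 h) (pcU h0 h1 h')
    nm _ := nm h0 h1
    sd _ := sd_card h0 h1
    nh0 _ h := (ncard_eq_zero (toFinite _)).2
      (eq_empty_of_forall_notMem fun _ k => no_ls h0 h1 h k.1 k.2)
    nh := nh h0 h1
    nd0 := nd0 h0 h1
    nc := nc h0 h1
    sL := sL h0 h1
    sR := sR' h0 h1
    sdP := sdp h0 h1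
    V _ := lvV h0 h1
    H _ := csH h0 h1
    bal _ _ := bal h0 h1 }

end Crest.Agent.X212.Sm42
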